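import Vale.Agent.P204.General.Final
import Vale.Agent.P204.General.Ext.Main
import Vale.Agent.P204.General.FieldForm
import Vale.Agent.P204.General.FieldNondeg
import Vale.Agent.P204.Kernel.Main
import Vale.Agent.P204.Kernel.Tauber

/-!
# A tamed almost complex structure on a closed four-manifold has a compatible symplectic form
-/

namespace Vale.Agent.Results.P204.TamedCompatible

open scoped Manifold ContDiff
open Vale.Agent.P204

universe u

/-- On every closed connected smooth four-manifold, an almost complex structure tamed by a closed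
two-form has a compatible symplectic form. -/
theorem result : ∀ (X : Type u) [TopologicalSpace X] [T2Space X] [SecondCountableTopology X]
    [CompactSpace X] [ConnectedSpace X] [ChartedSpace (EuclideanSpace ℝ (Fin 4)) X]
    [IsManifold (𝓡 4) ∞ X] (J : Field.Endo (EuclideanSpace ℝ (Fin 4)) X),
    Field.IsACStructure J → (∃ τ, Field.IsClosedForm τ ∧ Field.Tames τ J) →
    ∃ σ : Field.Bilin (EuclideanSpace ℝ (Fin 4)) X, Field.IsClosedForm σ ∧ Field.Tames σ J ∧
      Field.IsInvariant σ J ∧ Field.IsNondegenerate σ :=
  fun X _ _ _ _ _ _ _ J hJ ht => by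
    obtain ⟨σ, h1, h2, h3⟩ := General.field_form
      (General.conjecture_of General.boundStmt (Kernel.smoothStmt_of Kernel.tauberStmt)) X J hJ ht
    exact ⟨σ, h1, h2, h3, fun x v hv => ⟨J x v, (h2 x v hv).ne'⟩⟩

end Vale.Agent.Results.P204.TamedCompatible
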